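import Vale.Agent.P004F.Lt.Grp
import Vale.Agent.P014U.Gn
import Vale.Agent.P022K.CH.Tame

/-! # P014U, port of P004F, row LOCT: the tame quotient of a decomposition group -/

set_option linter.all false

open NumberField
open scoped Classical

noncomputable section

namespace Vale.Agent.P014U.X4F.Lt

open Vale.Agent.P022
open Vale.Agent.P022.H443 (inP galQb)
open Vale.Agent.P027M.S (Inert)
open Vale.Agent.P022D.W (dec inP_le_dec phi_mem phi_pow conj_inP)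
open Vale.Agent.P022E.GW (Ov Fb)
open Vale.Agent.P022K.G2 (ka rt zt zt_prim ka_law ka_add ka_lv inert_gz ex_lv' add_cyc)

export Vale.Agent.P004F.Lt (ex_nrm ex_pow eig root swap XS)

variable [Pp]

/-- a place of residue degree `f` -/
structure Pl (Γ : Subgroup GQ) (l f : ℕ) (P : Ideal (𝓞 Qb)) (φ τ : GQ) : Prop where
  ov : Ov l P
  l2 : l ≠ pp
  f0 : 0 < f
  fb : Fb l P φ
  gn : Gn l P τ
  ine : ∀ g, Inert P g → g ∈ Γ
  pw : ∀ i : ℕ, φ ^ i ∈ Γ ↔ f ∣ i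
  opn : IsOpen (Γ : Set GQ)

/-- homomorphisms of the decomposition group, inertia acts through a `pp`-group -/
structure Hm (Γ : Subgroup GQ) (P : Ideal (𝓞 Qb)) {G : Type} [Monoid G] (σ : GQ → G) : Prop where
  one : σ 1 = 1
  mul : ∀ g ∈ Γ ⊓ dec P, ∀ h ∈ Γ ⊓ dec P, σ (g * h) = σ g * σ h
  lc : ∃ W : Subgroup GQ, IsOpen (W : Set GQ) ∧ ∀ w ∈ Γ ⊓ dec P, w ∈ W → σ w = 1
  two : ∀ g, Inert P g → ∃ n : ℕ, σ g ^ pp ^ n = 1

variable {Γ : Subgroup GQ} {l f : ℕ} {P : Ideal (𝓞 Qb)} {φ τ g : GQ} {G G' : Type} [Monoid G]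
  [Monoid G'] {σ : GQ → G} {σ' : GQ → G'}

theorem Hm.pow (h : Hm Γ P σ) (hg : g ∈ Γ ⊓ dec P) (n : ℕ) : σ (g ^ n) = σ g ^ n := by
  induction n with
  | zero => simpa using h.one
  | succ n ih => rw [pow_succ, h.mul _ (pow_mem hg n) _ hg, ih, pow_succ]

theorem Hm.prod (h : Hm Γ P σ) (h' : Hm Γ P σ') : Hm Γ P fun g => (σ g, σ' g) where
  one := Prod.ext h.one h'.one
  mul g a k b := Prod.ext (h.mul g a k b) (h'.mul g a k b)
  lc := let ⟨W, a, b⟩ := h.lc; let ⟨W', a', b'⟩ := h'.lc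
    ⟨W ⊓ W', a.inter a', fun w m k => Prod.ext (b w m k.1) (b' w m k.2)⟩
  two g hg := let ⟨n, a⟩ := h.two g hg; let ⟨m, b⟩ := h'.two g hg
    ⟨n + m, Prod.ext (by simp [pow_add, pow_mul, a]) (by simp [pow_add, pow_mul', b])⟩

theorem Pl.inD (p : Pl Γ l f P φ τ) (hg : g ∈ inP P) : g ∈ Γ ⊓ dec P := ⟨p.ine g hg, inP_le_dec hg⟩

theorem Pl.phi (p : Pl Γ l f P φ τ) : φ ∈ dec P := phi_mem p.ov.1 p.ov.2.1 p.fb

theorem Pl.F (p : Pl Γ l f P φ τ) : φ ^ f ∈ Γ ⊓ dec P := ⟨(p.pw f).2 dvd_rfl, pow_mem p.phi f⟩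

theorem Pl.tau (p : Pl Γ l f P φ τ) : τ ∈ Γ ⊓ dec P := p.inD p.gn.1

theorem cop_l (o : Ov l P) (h : l ≠ pp) : l.Coprime pp := (Nat.coprime_primes o.1 pp_prime).2 h

theorem ka_in (o : Ov l P) (h : l ≠ pp) {s : GQ} (a : Inert P g) :
    ka pp l (g * s) = ka pp l g + ka pp l s :=
  ka_add (Nat.cast_ne_zero.2 o.1.ne_zero) (inert_gz o h a) (map_natCast g l) (map_natCast s l)

theorem ka_pw (o : Ov l P) (h : l ≠ pp) (a : Inert P g) (n : ℕ) : ka pp l (g ^ n) = n * ka pp l g := by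
  induction n with
  | zero => simpa using ka_in o h (s := 1) (inP P).one_mem
  | succ n ih => rw [pow_succ', ka_in o h a, ih]; push_cast; ring

theorem inv_mod {a : ℕ} {x : ZMod pp} (h : 1 = a * x) (n : ℕ) : ∃ b, a * b % pp ^ (n + 1) = 1 :=
  (Nat.exists_mul_mod_eq_one_of_coprime (k := pp ^ (n + 1)) (Nat.Coprime.pow_right _
    ((pp_prime.coprime_iff_not_dvd.2 fun c => by
      rw [(ZMod.natCast_eq_zero_iff a pp).2 c, zero_mul] at h
      exact one_ne_zero h).symm)) (Nat.one_lt_pow (by simp) one_lt)).imp fun _ c => c.2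

/-- additive functions on inertia are determined by the value at a generator -/
theorem lt1 (o : Ov l P) (k : ℕ) (hl : l ≠ pp) (hτ : Gn l P τ) (hi : Inert P g) {U : Subgroup GQ}
    (hU : IsOpen (U : Set GQ)) : ∃ j : ℕ, ∀ (A : Type) [AddCommGroup A] (f : GQ → A),
      (∀ a : A, pp ^ k • a = 0) → (∀ g, Inert P g → g ∈ U → f g = 0) →
      (∀ g h, Inert P g → Inert P h → f (g * h) = f g + f h) → f g = j • f τ := by
  obtain ⟨V, hV, v⟩ := ka_lv (p := pp) (Nat.cast_ne_zero.2 o.1.ne_zero : (l : Qb) ≠ 0)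
  obtain ⟨W, hW, le⟩ := ex_lv' (H := U ⊓ V) (hU.inter hV.opn)
  haveI := hW.nrm
  obtain ⟨t, ht, e⟩ := P022K.CH.Loc.cyc_level W hW.opn o
  obtain ⟨a, ha⟩ := e τ hτ.1
  obtain ⟨b, hb⟩ := e g hi
  have hl' : ∀ (A : Type) [AddCommGroup A], (∀ a : A, pp ^ k • a = 0 ∨ pp • a = 0) →
      ∀ x : A, l • x = 0 → x = 0 := fun A _ hA x hx => by
    rw [← addOrderOf_dvd_iff_nsmul_eq_zero] at hx
    exact AddMonoid.addOrderOf_eq_one_iff.1 ((hA x).elim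
      (fun c => Nat.eq_one_of_dvd_coprimes ((cop_l o hl).pow_right k) hx
        (addOrderOf_dvd_iff_nsmul_eq_zero.2 c)) fun c => Nat.eq_one_of_dvd_coprimes (cop_l o hl) hx
        (addOrderOf_dvd_iff_nsmul_eq_zero.2 c))
  have h1 := add_cyc (F := ka pp l) (hl' _ fun x => .inr (by simp)) (fun g j a _ => ka_in o hl a)
    (fun w m _ => (v w (le m).2).2) ht hτ.1 ha
  rw [hτ.2, nsmul_eq_mul] at h1
  obtain ⟨m, hm⟩ := inv_mod h1 k
  refine ⟨b * m, fun A _ f hA h0 ad => ?_⟩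
  have k0 : ∀ w ∈ W, Inert P w → f w = 0 := fun w m hw => h0 w hw (le m).1
  rw [add_cyc (hl' A fun x => .inl (hA x)) ad k0 ht hi hb,
    add_cyc (hl' A fun x => .inl (hA x)) ad k0 ht hτ.1 ha, mul_nsmul', ← mul_nsmul' _ m,
    mul_comm m a, ← Nat.mod_add_div (a * m) (pp ^ (k + 1)), hm, add_nsmul, one_nsmul, pow_succ,
    mul_assoc, mul_nsmul', hA, add_zero]

/-- the relation and the normal form -/
theorem Pl.str (p : Pl Γ l f P φ τ) (h : Hm Γ P σ) :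
    σ (φ ^ f) * σ τ = σ τ ^ l ^ f * σ (φ ^ f) ∧
      ∀ g ∈ Γ ⊓ dec P, ∃ i k : ℕ, σ g = σ τ ^ i * σ (φ ^ f) ^ k := by
  obtain ⟨W', hW', w⟩ := ka_lv (p := pp) (Nat.cast_ne_zero.2 p.ov.1.ne_zero : (l : Qb) ≠ 0)
  obtain ⟨W, o, hW⟩ := h.lc
  obtain ⟨V, nV, oV, le⟩ := ex_nrm (U := W ⊓ Γ ⊓ W') ((o.inter p.opn).inter hW'.opn)
  obtain ⟨t, ht, T⟩ := P022K.CH.Loc.tame p.ov
  obtain ⟨N, T⟩ := T φ p.fb V oV
  have hN : ∀ s ∈ N, σ s = 1 ∧ ka pp l s = 0 := fun s hs => by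
    obtain ⟨m, b⟩ := T.wild s hs
    have c := le b
    have d := p.inD (T.NI hs)
    obtain ⟨n, e⟩ := h.two s (T.NI hs)
    refine ⟨(pow_eq_one_iff_of_coprime ((cop_l p.ov p.l2).pow m n)).1
      ⟨(h.pow d _).symm.trans (hW _ (pow_mem d _) c.1.1), e⟩, ?_⟩
    refine (mul_eq_zero.1 ((ka_pw p.ov p.l2 (T.NI hs) _).symm.trans (w _ c.2).2)).resolve_left fun k =>
      pp_prime.coprime_iff_not_dvd.1 ((cop_l p.ov p.l2).pow_left m).symm
        ((ZMod.natCast_eq_zero_iff _ pp).1 k)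
  have cy : ∀ s ∈ inP P, ∃ k : ℕ, σ s = σ t ^ k ∧ ka pp l s = k * ka pp l t := fun s hs => by
    obtain ⟨k, u, a, rfl⟩ := T.cyc s hs
    exact ⟨k, by rw [h.mul _ (pow_mem (p.inD ht) k) _ (p.inD (T.NI a)), (hN u a).1, mul_one,
      h.pow (p.inD ht)], by rw [ka_in p.ov p.l2 (pow_mem ht k), (hN u a).2, add_zero, ka_pw p.ov p.l2 ht]⟩
  obtain ⟨b, hb⟩ : ∃ b, σ t = σ τ ^ b := by
    obtain ⟨a, a1, a2⟩ := cy τ p.gn.1
    obtain ⟨n, e⟩ := h.two t ht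
    obtain ⟨b, c⟩ := inv_mod (p.gn.2.symm.trans a2) n
    exact ⟨b, by rw [a1, ← pow_mul, pow_eq_pow_mod (n := pp ^ (n + 1)) (a * b)
      (by rw [pow_succ, pow_mul, e, one_pow]), c, pow_one]⟩
  refine ⟨?_, fun g hg => ?_⟩
  · have k : ∀ j : ℕ, ∃ u ∈ N, φ ^ j * τ * (φ ^ j)⁻¹ = u * τ ^ l ^ j := fun j => by
      induction j with
      | zero => exact ⟨1, one_mem _, by simp⟩
      | succ j ih =>
        obtain ⟨u, a, e⟩ := ih
        obtain ⟨v, c, d⟩ := T.rel _ (pow_mem T.tau 0 |> fun _ => pow_mem p.gn.1 (l ^ j))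
        refine ⟨_, mul_mem (T.cjN φ T.phi u a) c, ?_⟩
        rw [pow_succ l, pow_mul, mul_assoc _ v, ← d, pow_succ']
        calc _ = φ * (φ ^ j * τ * (φ ^ j)⁻¹) * φ⁻¹ := by group
          _ = _ := by rw [e]; group
    obtain ⟨u, a, e⟩ := k f
    have d := p.inD (T.NI a)
    rw [← h.mul _ p.F _ p.tau, mul_inv_eq_iff_eq_mul.1 e, h.mul _ (mul_mem d (pow_mem p.tau _)) _ p.F,
      h.mul _ d _ (pow_mem p.tau _), (hN u a).1, one_mul, h.pow p.tau]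
  · obtain ⟨k, s, a, v, hv, e⟩ := T.gen g hg.2
    have m := le (show (φ ^ k * s)⁻¹ * g ∈ V by
      simpa only [e, mul_assoc] using nV.conj_mem' v hv (φ ^ k * s))
    have d := p.inD a
    have k1 : φ ^ k ∈ Γ := (Γ.mul_mem_cancel_right d.1).1 (inv_mem_iff.1
      ((Γ.mul_mem_cancel_right hg.1).1 m.1.2))
    obtain ⟨k, rfl⟩ := (p.pw k).1 k1
    have c := T.cjI _ (pow_mem T.phi (f * k)) s a
    obtain ⟨i, hi, -⟩ := cy _ c
    rw [pow_mul] at m c hi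
    have F := pow_mem p.F k
    have u := mul_mem (inv_mem (mul_mem F d)) hg
    refine ⟨b * i, k, ?_⟩
    rw [pow_mul, ← hb, ← hi, ← h.pow p.F, ← h.mul _ (p.inD c) _ F, ← mul_one (σ (_ * _)),
      ← hW _ u m.1.1, ← h.mul _ (mul_mem (p.inD c) F) _ u]
    congr 1; group

/-- **the universal property** -/
theorem Pl.ex (p : Pl Γ l f P φ τ) {F t : G} {n N : ℕ} (ht : t ^ pp ^ n = 1) (N0 : 0 < N)
    (hF : F ^ N = 1) (h : F * t = t ^ l ^ f * F) :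
    ∃ (ρ : GQ → G) (Q : Type) (π : GQ → Q), Hm Γ P ρ ∧ ρ (φ ^ f) = F ∧ ρ τ = t ∧
      (∀ g h, π g = π h → ρ g = ρ h) ∧ π (φ ^ f) ≠ π τ ∧
      ∃ W : Subgroup GQ, IsOpen (W : Set GQ) ∧ ∀ g, ∀ w ∈ W, π (g * w) = π g := by
  have l3 : 2 ≤ l ^ f := p.ov.1.two_le.trans (Nat.le_self_pow p.f0.ne' l)
  have l0 : (l : Qb) ≠ 0 := Nat.cast_ne_zero.2 p.ov.1.ne_zero
  obtain ⟨w, hw⟩ := IsAlgClosed.exists_pow_nat_eq (l : Qb) (pow_pos pp_pos (n + 1))
  obtain ⟨N', N1, hN⟩ := ex_pow (stabilizer_isOpen_of_isIntegral (K := ℚ) w) (φ ^ f)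
  obtain ⟨L, L2, L3, L4⟩ : ∃ L, 2 ≤ L ∧ F ^ L = 1 ∧ (φ ^ f) ^ L ∈ MulAction.stabilizer GQ w :=
    ⟨N' * (N * 2), by nlinarith [mul_pos N1 N0], by rw [mul_left_comm, pow_mul, hF, one_pow],
      pow_mul (φ ^ f) N' _ ▸ pow_mem hN _⟩
  obtain ⟨M, hM⟩ : ∃ M, (l ^ f) ^ L = M + 1 := ⟨_, (Nat.sub_add_cancel (Nat.one_le_pow _ _ (by omega))).symm⟩
  have lM : ¬ l ∣ M := fun c => p.ov.1.not_dvd_one ((Nat.dvd_add_right c).1
    (hM ▸ dvd_pow (dvd_pow_self l p.f0.ne') (by omega)))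
  have lt : ∀ r < L, (l ^ f) ^ r < M := fun r hr => by
    have a := Nat.pow_le_pow_right (show 0 < l ^ f by omega) (show r + 1 ≤ L from hr)
    have b := (Nat.pow_le_pow_left l3 2).trans (Nat.pow_le_pow_right (show 0 < l ^ f by omega) L2)
    rw [pow_succ, hM] at a
    rw [hM] at b
    have := (Nat.mul_le_mul_left _ l3).trans a
    omega
  have : NeZero M := ⟨fun e => lM (e ▸ dvd_zero l)⟩
  obtain ⟨z, hz⟩ := HasEnoughRootsOfUnity.exists_primitiveRoot Qb M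
  have l2 : ¬ l ∣ pp ^ (n + 1) := fun c =>
    p.l2 ((Nat.prime_dvd_prime_iff_eq p.ov.1 pp_prime).1 (p.ov.1.dvd_of_dvd_pow c))
  have fx : ∀ g ∈ inP P, ∀ x : Qb, x ^ M = 1 → g x = x := fun g hg x hx => by
    simpa using root (c := 1) p.ov lM hx fun y => (pow_one y).symm ▸ hg y
  have kum : ∀ g ∈ inP P, ∀ v : Qb, v ^ pp ^ (n + 1) = l → (g v / v) ^ pp ^ (n + 1) = 1 ∧
      ∀ i, (g ^ i) v = (g v / v) ^ i * v := fun g hg v hv => by
    have v0 : v ≠ 0 := fun e => l0 (by rw [← hv, e, zero_pow (pow_pos pp_pos _).ne'])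
    have a : (g v / v) ^ pp ^ (n + 1) = 1 := by
      rw [div_pow, ← map_pow, hv, map_natCast, div_self l0]
    exact ⟨a, eig (div_mul_cancel₀ _ v0).symm
      (by simpa using root (c := 1) p.ov l2 a fun y => (pow_one y).symm ▸ hg y)⟩
  let π := MulAction.toPermHom GQ (XS M (pp ^ (n + 1)) l)
  have eq : ∀ g h, π g = π h ↔ ∀ x : Qb, x ^ M = 1 ∨ x ^ pp ^ (n + 1) = l → g x = h x := fun g h =>
    ⟨fun e x hx => congrArg Subtype.val (Equiv.congr_fun e (⟨x, hx⟩ : XS M (pp ^ (n + 1)) l)),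
      fun e => Equiv.ext fun x => Subtype.ext (e x.1 x.2)⟩
  obtain ⟨W, oW, hW⟩ : ∃ W : Subgroup GQ, IsOpen (W : Set GQ) ∧ ∀ w ∈ W, π w = 1 := by
    have fin : {x : Qb | x ^ M = 1 ∨ x ^ pp ^ (n + 1) = l}.Finite :=
      ((Polynomial.nthRoots M (1 : Qb)).finite_toSet.union
        (Polynomial.nthRoots (pp ^ (n + 1)) (l : Qb)).finite_toSet).subset fun x hx =>
          hx.imp (Polynomial.mem_nthRoots (NeZero.pos M)).2
            (Polynomial.mem_nthRoots (pow_pos pp_pos _)).2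
    refine ⟨⨅ x ∈ {x : Qb | x ^ M = 1 ∨ x ^ pp ^ (n + 1) = l}, MulAction.stabilizer GQ x, ?_,
      fun w m => (map_one π) ▸ (eq _ _).2 fun x hx => Subgroup.mem_iInf.1 (Subgroup.mem_iInf.1 m x) hx⟩
    simp only [Subgroup.coe_iInf]
    exact fin.isOpen_biInter fun x _ => stabilizer_isOpen_of_isIntegral x
  have tw : ∀ g ∈ inP P, π (g ^ pp ^ (n + 1)) = π 1 := fun g hg => (eq _ _).2 fun x hx =>
    hx.elim (fx _ (pow_mem hg _) x) fun e => by rw [(kum g hg x e).2, (kum g hg x e).1]; simp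
  have Hπ : Hm Γ P π := ⟨map_one π, fun g _ h _ => map_mul π g h, ⟨W, oW, fun w _ => hW w⟩,
    fun g hg => ⟨n + 1, by rw [← map_pow, tw g hg, map_one]⟩⟩
  obtain ⟨rel, gen⟩ := p.str Hπ
  have inj : ∀ i k j m : ℕ, π τ ^ i * π (φ ^ f) ^ k = π τ ^ j * π (φ ^ f) ^ m →
      k % L = m % L ∧ i % pp ^ (n + 1) = j % pp ^ (n + 1) := fun i k j m e => by
    simp only [← map_pow, ← map_mul, eq, AlgEquiv.mul_apply] at e
    have a : ∀ k, ((φ ^ f) ^ k) z = z ^ (l ^ f) ^ (k % L) := fun k => by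
      rw [← pow_mul, root p.ov lM hz.pow_eq_one (phi_pow p.ov.1 p.ov.2.1 p.fb (f * k)), pow_mul l,
        pow_eq_pow_mod _ hz.pow_eq_one, pow_eq_pow_mod ((l ^ f) ^ (k % L)) hz.pow_eq_one]
      conv_lhs => rw [← Nat.mod_add_div k L, pow_add, pow_mul, hM, Nat.mul_mod, Nat.pow_mod (M + 1),
        Nat.add_mod_left, ← Nat.pow_mod, one_pow, ← Nat.mul_mod, mul_one]
    have zp : ∀ r, (z ^ r) ^ M = 1 := fun r => by rw [← pow_mul, mul_comm, pow_mul, hz.pow_eq_one, one_pow]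
    have e1 := e z (.inl hz.pow_eq_one)
    rw [a, a, fx _ (pow_mem p.gn.1 i) _ (zp _), fx _ (pow_mem p.gn.1 j) _ (zp _)] at e1
    have km := Nat.pow_right_injective (show 2 ≤ l ^ f by omega)
      (hz.pow_inj (lt _ (Nat.mod_lt _ (by omega))) (lt _ (Nat.mod_lt _ (by omega))) e1)
    have b : ∀ k, ((φ ^ f) ^ k) w = ((φ ^ f) ^ (k % L)) w := fun k => by
      conv_lhs => rw [← Nat.mod_add_div k L, pow_add, pow_mul, AlgEquiv.mul_apply,
        show (((φ ^ f) ^ L) ^ (k / L)) w = w from pow_mem L4 _]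
    have e2 := e w (.inr hw)
    rw [b k, b m, ← km] at e2
    have hv : (((φ ^ f) ^ (k % L)) w) ^ pp ^ (n + 1) = l := by rw [← map_pow, hw, map_natCast]
    generalize ((φ ^ f) ^ (k % L)) w = v at e2 hv
    have v0 : v ≠ 0 := fun e => l0 (by rw [← hv, e, zero_pow (pow_pos pp_pos _).ne'])
    obtain ⟨c1, c2⟩ := kum τ p.gn.1 v hv
    rw [c2, c2, mul_left_inj' v0, (isOfFinOrder_iff_pow_eq_one.2
      ⟨_, pow_pos pp_pos _, c1⟩).pow_eq_pow_iff_modEq, orderOf_eq_prime_pow _ c1] at e2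
    · exact ⟨km, e2⟩
    · rw [div_pow, ← map_pow, ka_law (p := pp) (b := l) (by rw [← pow_mul, ← pow_succ, hv])
        (inert_gz p.ov p.l2 p.gn.1) (map_natCast τ l), p.gn.2, mul_div_assoc,
        div_self (pow_ne_zero _ v0), mul_one, ZMod.val_one'' one_lt.ne', pow_one]
      exact (zt_prim pp).ne_one one_lt
  have t1 : t ^ pp ^ (n + 1) = 1 := by rw [pow_succ, pow_mul, ht, one_pow]
  let r : Equiv.Perm (XS M (pp ^ (n + 1)) l) → G := fun y =>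
    if c : ∃ x : ℕ × ℕ, y = π τ ^ x.1 * π (φ ^ f) ^ x.2 then t ^ c.choose.1 * F ^ c.choose.2 else 1
  have val : ∀ i k, r (π τ ^ i * π (φ ^ f) ^ k) = t ^ i * F ^ k := fun i k => by
    have c : ∃ x : ℕ × ℕ, π τ ^ i * π (φ ^ f) ^ k = π τ ^ x.1 * π (φ ^ f) ^ x.2 := ⟨(i, k), rfl⟩
    obtain ⟨a, b⟩ := inj _ _ _ _ c.choose_spec
    simp only [r, dif_pos c]
    rw [pow_eq_pow_mod _ t1, pow_eq_pow_mod _ L3, ← a, ← b, ← pow_eq_pow_mod _ t1,
      ← pow_eq_pow_mod _ L3]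
  have r1 : r 1 = 1 := by simpa using val 0 0
  have mul : ∀ g ∈ Γ ⊓ dec P, ∀ h ∈ Γ ⊓ dec P, r (π (g * h)) = r (π g) * r (π h) :=
    fun g hg g' hg' => by
      obtain ⟨i, k, a⟩ := gen g hg
      obtain ⟨j, m, b⟩ := gen g' hg'
      rw [map_mul, a, b, mul_assoc, ← mul_assoc _ (π τ ^ j), swap rel, mul_assoc, ← mul_assoc,
        ← pow_add, ← pow_add, val, val, val, mul_assoc, ← mul_assoc _ (t ^ j), swap h, mul_assoc,
        ← mul_assoc, ← pow_add, ← pow_add]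
  have pw : ∀ g ∈ Γ ⊓ dec P, ∀ i, r (π (g ^ i)) = r (π g) ^ i := fun g hg i => by
    induction i with
    | zero => simpa using r1
    | succ i ih => rw [pow_succ g i, mul _ (pow_mem hg i) _ hg, ih, pow_succ (r (π g))]
  refine ⟨fun g => r (π g), _, π, ⟨by simpa using r1, mul, ⟨W, oW, fun w _ m => by rw [hW w m, r1]⟩,
    fun g hg => ⟨n + 1, by rw [← pw g (p.inD hg), tw g hg, map_one, r1]⟩⟩,
    by simpa using val 0 1, by simpa using val 1 0, fun _ _ e => congrArg r e, fun e => ?_,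
    W, oW, fun g w m => by rw [map_mul, hW w m, mul_one]⟩
  have := (inj 0 1 1 0 (by simpa using e)).1
  rw [Nat.mod_eq_of_lt L2] at this
  simp at this

end Vale.Agent.P014U.X4F.Lt
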