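import Vale.Agent.P004F.Lt.Loct
import Vale.Agent.P014U.X4F.Lt.Grp

/-! # P014U, port of P004F, row LOCT: the tame local presentation -/

set_option linter.all false

open NumberField Matrix
open scoped Classical

noncomputable section

namespace Vale.Agent.P014U.X4F.Lt

open Vale.Agent.P022
open Vale.Agent.P022D.W (dec)
open Vale.Agent.P027M.S (Inert)
open Vale.Agent.P022E.GW (Ov Fb)
open Vale.Agent.P004F (M2 Nt)
open Vale.Agent.P004F.Pr (ac ac_add ac_zero)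
open Vale.Agent.P004F.Lt (ac_mul ac_one add_ac sub_ac zero_ac ac_cols ac_map Af pow_df one_df rel_iff
  lin chg univ Af.ext)

variable [Pp] {R : Type} [CommRing R] {M M' : Type} [AddCommGroup M] [Module R M] [AddCommGroup M']
  [Module R M'] {s μ ν : Type} [Fintype μ] [Fintype ν]

theorem ord {k N : ℕ} (h : (pp : R) ^ k = 0) (a : Af R M) (hN : a.A ^ N = 1) :
    a ^ (N * pp ^ k) = 1 := by
  have e : ((pp ^ k : ℕ) : R) = 0 := by simpa using h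
  rw [pow_mul, pow_df a, pow_df, hN, one_df]
  simp only [one_pow, Finset.sum_const, Finset.card_range]
  rw [← Nat.cast_smul_eq_nsmul R, e, zero_smul, zero_ac]

theorem Pl.uniq {Γ : Subgroup GQ} {l f : ℕ} {P : Ideal (𝓞 Qb)} {φ τ : GQ} {G G' : Type} [Monoid G]
    [Monoid G'] {σ : GQ → G} {σ' : GQ → G'} (p : Pl Γ l f P φ τ) (h : Hm Γ P σ) (h' : Hm Γ P σ')
    (θ : G →* G') (a : θ (σ (φ ^ f)) = σ' (φ ^ f)) (b : θ (σ τ) = σ' τ) :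
    ∀ g ∈ Γ ⊓ dec P, θ (σ g) = σ' g := fun g hg => by
  obtain ⟨i, k, e⟩ := (p.str (h.prod h')).2 g hg
  have e1 : σ g = σ τ ^ i * σ (φ ^ f) ^ k := congrArg Prod.fst e
  have e2 : σ' g = σ' τ ^ i * σ' (φ ^ f) ^ k := congrArg Prod.snd e
  rw [e1, e2, map_mul, map_pow, map_pow, a, b]

/-- **the tame local presentation** at a place of residue degree `f` -/
def LOCT : Prop := ∀ (R : Type) [CommRing R] [Finite R] (k : ℕ), (pp : R) ^ k = 0 →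
  ∀ (Γ : Subgroup GQ) (l f : ℕ) (P : Ideal (𝓞 Qb)) (φ τ : GQ) (a : GQ → M2 R),
  Ov l P → l ≠ pp → 0 < f → Fb l P φ → Gn l P τ → (∀ g, Inert P g → g ∈ Γ) →
  (∀ i : ℕ, φ ^ i ∈ Γ ↔ f ∣ i) → IsOpen (Γ : Set GQ) → a 1 = 1 →
  (∀ g ∈ Γ ⊓ dec P, ∀ h ∈ Γ ⊓ dec P, a (g * h) = a g * a h) →
  (∃ W : Subgroup GQ, IsOpen (W : Set GQ) ∧ ∀ w ∈ Γ ⊓ dec P, w ∈ W → a w = 1) →
  (∀ g, Inert P g → ∃ n : ℕ, a g ^ pp ^ n = 1) →
  ∃ b : GQ → Matrix (Fin 2) (Fin 2 ⊕ Fin 2) R,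
    (∀ g ∈ Γ ⊓ dec P, ∀ h ∈ Γ ⊓ dec P, ∃ β : M2 R,
      b (g * h) = b g + a g * b h + β * Nt (a (φ ^ f)) (a τ) (l ^ f)) ∧
    (∃ W : Subgroup GQ, IsOpen (W : Set GQ) ∧ ∀ g ∈ Γ ⊓ dec P, ∀ w ∈ Γ ⊓ dec P, w ∈ W →
      b (g * w) = b g) ∧
    b (φ ^ f) = fromCols 1 0 ∧ b τ = fromCols 0 1 ∧
    ∀ (M : Type) [AddCommGroup M] [Module R M] (x : GQ → Fin 2 → M),
      (∀ g ∈ Γ ⊓ dec P, ∀ h ∈ Γ ⊓ dec P, x (g * h) = x g + ac (a g) (x h)) →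
      (∃ W : Subgroup GQ, IsOpen (W : Set GQ) ∧ ∀ w ∈ Γ ⊓ dec P, w ∈ W → x w = 0) →
      ac (Nt (a (φ ^ f)) (a τ) (l ^ f)) (Sum.elim (x (φ ^ f)) (x τ)) = 0 ∧
      ∀ g ∈ Γ ⊓ dec P, x g = ac (b g) (Sum.elim (x (φ ^ f)) (x τ))

/-- **the tame local presentation** -/
theorem loct : LOCT := by
  intro R _ _ k h2 Γ l f P φ τ a ov l2 f0 fb gn ine pw opn one mul lc two
  have p : Pl Γ l f P φ τ := ⟨ov, l2, f0, fb, gn, ine, pw, opn⟩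
  have ha : Hm Γ P a := ⟨one, mul, lc, two⟩
  have rel := (p.str ha).1
  obtain ⟨M₀, _, _, y, y0, sj, ker, un⟩ := univ (Nt (a (φ ^ f)) (a τ) (l ^ f))
  obtain ⟨n, hn⟩ := two τ gn.1
  obtain ⟨W, oW, hW⟩ := lc
  obtain ⟨N, N0, hN⟩ := ex_pow oW (φ ^ f)
  obtain ⟨ρ, Q, π, hρ, rF, rt, rπ, ne, V, oV, hV⟩ := p.ex (G := Af R M₀)
    (F := ⟨y ∘ .inl, a (φ ^ f)⟩) (t := ⟨y ∘ .inr, a τ⟩) (n := n + k) (N := N * pp ^ k)
    (by rw [pow_add]; exact ord h2 _ hn) (mul_pos N0 (pow_pos pp_pos k))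
    (ord h2 _ ((ha.pow p.F N).symm.trans (hW _ (pow_mem p.F N) hN)))
    ((rel_iff _ _ _ y rfl rfl rel).2 y0)
  have ρa := p.uniq hρ ha lin (by rw [rF]; rfl) (by rw [rt]; rfl)
  choose B hB using sj
  let b : GQ → Matrix (Fin 2) (Fin 2 ⊕ Fin 2) R := fun g =>
    if π g = π (φ ^ f) then fromCols 1 0 else if π g = π τ then fromCols 0 1 else B (ρ g).x
  have hb : ∀ g, ac (b g) y = (ρ g).x := fun g => by
    simp only [b]
    split_ifs with c d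
    · rw [rπ _ _ c, rF, ac_cols, ac_one, zero_ac, add_zero]
    · rw [rπ _ _ d, rt, ac_cols, ac_one, zero_ac, zero_add]
    · exact hB _
  refine ⟨b, fun g hg h hh => ?_, ⟨V, oV, fun g _ w _ m => ?_⟩, if_pos rfl,
    (if_neg ne.symm).trans (if_pos rfl), fun M _ _ x cx ⟨U, oU, hU⟩ => ?_⟩
  · obtain ⟨β, e⟩ := ker (b (g * h) - (b g + a g * b h)) (by
      rw [sub_ac, add_ac, ac_mul, hb, hb, hb, hρ.mul g hg h hh, ← ρa g hg]; exact sub_self _)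
    exact ⟨β, sub_eq_iff_eq_add'.1 e⟩
  · simp only [b, hV g w m, rπ _ _ (hV g w m)]
  · have hσ : Hm Γ P fun g => (⟨x g, a g⟩ : Af R M) := by
      refine ⟨Af.ext (hU 1 (one_mem _) (one_mem _)) one, fun g hg h hh =>
        Af.ext (cx g hg h hh) (mul g hg h hh), ⟨U ⊓ W, oU.inter oW, fun w m c =>
          Af.ext (hU w m c.1) (hW w m c.2)⟩, fun g hg => ?_⟩
      obtain ⟨m, e⟩ := two g hg
      exact ⟨m + k, by rw [pow_add]; exact ord h2 _ e⟩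
    have z0 := (rel_iff _ _ _ (Sum.elim (x (φ ^ f)) (x τ)) rfl rfl rel).1 (p.str hσ).1
    obtain ⟨θ, hθ⟩ := un M _ z0
    refine ⟨z0, fun g hg => ?_⟩
    have e := p.uniq hρ hσ (chg θ) (by rw [rF]; exact Af.ext (congrArg (· ∘ Sum.inl) hθ) rfl)
      (by rw [rt]; exact Af.ext (congrArg (· ∘ Sum.inr) hθ) rfl) g hg
    rw [← hθ, ← ac_map, hb]
    exact (congrArg Af.x e).symm

end Vale.Agent.P014U.X4F.Lt
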